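import Vale.Agent.P004X.P004G.H1a
import Vale.Agent.P004X.P004G.H128.Pass1

/-!
# P004G, module P1 (part 2): the Mellin formula for the coefficients `bet`
-/

open Real MeasureTheory Set Filter Topology
open scoped ENNReal

namespace P004G

variable [Crv]

namespace H128

open P004.H128 (integrable_exp_mul integral_exp_mul sl sl_re Kf norm_Kf_le continuous_sl
  continuous_Kf inner_integral)

lemma abs_bet_le (hC : StCoef) {f : ℝ → ℝ} {U b : ℝ} (hb : ∀ u, 0 < u → |f u| ≤ b)
    (hfU : ∀ u, 0 < u → u < U → f u = 0) (n : ℕ) :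
    |bet f n| ≤ 4 * b * ((n : ℝ) ^ 1 * rexp (-(π * U / 2) * n)) := by
  have hb0 : 0 ≤ b := (abs_nonneg _).trans (hb 1 one_pos)
  rcases Nat.eq_zero_or_pos n with rfl | hn
  · unfold bet
    rw [hC.zero]
    simp
  have hn0 : (0 : ℝ) < n := by exact_mod_cast hn
  have h1 : ‖∫ u in Ioi (0 : ℝ), rexp (-π * n * u) * f u‖ ≤
      ∫ u in Ioi (0 : ℝ), b * rexp (-(π * U / 2) * n) * rexp (-(π * n / 2) * u) := by
    refine norm_integral_le_of_norm_le ((integrable_exp_mul (by positivity)).const_mul _) ?_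
    filter_upwards [ae_restrict_mem measurableSet_Ioi] with u hu0
    have hu0' : (0 : ℝ) < u := hu0
    rw [norm_mul, Real.norm_eq_abs, Real.norm_eq_abs, abs_of_pos (Real.exp_pos _)]
    by_cases hu : u < U
    · rw [hfU u hu0' hu]
      simp only [abs_zero, mul_zero]
      positivity
    · push Not at hu
      have e1 : rexp (-π * n * u) = rexp (-(π * n / 2) * u) * rexp (-(π * n / 2) * u) := by
        rw [← Real.exp_add]
        ring_nf
      have e2 : rexp (-(π * n / 2) * u) ≤ rexp (-(π * U / 2) * n) := by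
        apply Real.exp_le_exp.2
        have : π * n * U ≤ π * n * u := by gcongr
        linarith
      calc rexp (-π * n * u) * |f u| ≤
          (rexp (-(π * U / 2) * n) * rexp (-(π * n / 2) * u)) * b := by
            rw [e1]
            gcongr
            exact hb u hu0'
        _ = _ := by ring
  rw [integral_const_mul, integral_exp_mul (by positivity)] at h1
  unfold bet
  rw [abs_mul, abs_mul, abs_of_pos (by norm_num : (0 : ℝ) < 4), ← Real.norm_eq_abs (∫ u in _, _)]
  have h2 : 1 / (π * n / 2) ≤ 1 / (n : ℝ) := by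
    apply one_div_le_one_div_of_le hn0
    have := Real.pi_gt_three
    nlinarith
  calc 4 * |(ca n : ℝ)| * ‖∫ u in Ioi (0 : ℝ), rexp (-π * n * u) * f u‖ ≤
        4 * (n : ℝ) ^ 2 * (b * rexp (-(π * U / 2) * n) * (1 / (n : ℝ))) := by
        gcongr
        · exact H1.abs_ca_le hC n
        · exact h1.trans (by gcongr)
    _ = 4 * b * ((n : ℝ) ^ 1 * rexp (-(π * U / 2) * n)) := by
        field_simp

lemma summable_bet (hC : StCoef) {f : ℝ → ℝ} {U b : ℝ} (hU : 0 < U)
    (hb : ∀ u, 0 < u → |f u| ≤ b) (hfU : ∀ u, 0 < u → u < U → f u = 0) :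
    Summable fun n => |bet f n| := by
  have h1 := Real.summable_pow_mul_exp_neg_nat_mul 1 (r := π * U / 2) (by positivity)
  exact Summable.of_nonneg_of_le (fun _ => abs_nonneg _) (abs_bet_le hC hb hfU)
    (h1.mul_left (4 * b))

/-- the Mellin formula for `bet` -/
lemma bet_eq {Y : ℕ} (hY : 1 ≤ Y) {σ : ℝ} (h0 : 0 < σ) {h : ℝ → ℝ} {g : ℝ → ℂ}
    (hg : Continuous g) (hgi : Integrable g)
    (hrep : ∀ x : ℝ, (h x * Real.exp (-σ * x) : ℂ) = ∫ τ : ℝ, g τ * Complex.exp (τ * x * Complex.I))
    {n : ℕ} (hn : 1 ≤ n) :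
    (bet (cfY Y h) n : ℂ) = ∫ τ : ℝ, 4 * (ca n : ℂ) * (Kf Y σ g τ * (n : ℂ) ^ (-sl σ τ)) := by
  have hY0 : (0 : ℝ) < Y := by exact_mod_cast (by omega : 0 < Y)
  have hn0 : (0 : ℝ) < n := by exact_mod_cast (by omega : 0 < n)
  -- the pointwise formula
  have hpt : ∀ u ∈ Ioi (0 : ℝ), ((rexp (-π * n * u) * cfY Y h u : ℝ) : ℂ) =
      ∫ τ : ℝ, ((rexp (-π * n * u) : ℝ) : ℂ) *
        (g τ * Complex.exp ((sl σ τ - 1) * (Real.log (u * Y) : ℝ))) := by
    intro u _
    set x := Real.log (u * Y) with hx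
    have e1 : (h x : ℂ) = Complex.exp (σ * x) * ∫ τ : ℝ, g τ * Complex.exp (τ * x * Complex.I) := by
      rw [← hrep x]
      have : Complex.exp (σ * x) * ((rexp (-σ * x) : ℝ) : ℂ) = 1 := by
        rw [Complex.ofReal_exp, ← Complex.exp_add]
        push_cast
        ring_nf
        simp
      calc (h x : ℂ) = h x * (Complex.exp (σ * x) * ((rexp (-σ * x) : ℝ) : ℂ)) := by
            rw [this, mul_one]
        _ = _ := by ring
    rw [Complex.ofReal_mul]
    have e2 : ((cfY Y h u : ℝ) : ℂ) = (h x : ℂ) := rfl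
    rw [e2, e1, ← integral_const_mul, ← integral_const_mul]
    refine integral_congr_ae (Eventually.of_forall fun τ => ?_)
    simp only
    have e3 : Complex.exp ((sl σ τ - 1) * (x : ℂ)) =
        Complex.exp (σ * x) * Complex.exp (τ * x * Complex.I) := by
      rw [← Complex.exp_add]
      unfold sl
      ring_nf
    rw [e3]
    ring
  -- integrability on the product
  have hint : Integrable (Function.uncurry fun (u τ : ℝ) => ((rexp (-π * n * u) : ℝ) : ℂ) *
        (g τ * Complex.exp ((sl σ τ - 1) * (Real.log (u * Y) : ℝ))))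
      ((volume.restrict (Ioi (0 : ℝ))).prod volume) := by
    have hA : Integrable (fun u : ℝ => rexp (-(π * n) * u) * u ^ σ * (Y : ℝ) ^ σ)
        (volume.restrict (Ioi (0 : ℝ))) := by
      have h1 : IntegrableOn (fun u : ℝ => u ^ σ * rexp (-(π * n) * u)) (Ioi 0) :=
        integrableOn_rpow_mul_exp_neg_mul_rpow (s := σ) (p := 1) (b := π * n) (by linarith)
          one_pos (by positivity) |>.congr_fun (fun u _ => by simp) measurableSet_Ioi
      exact (h1.mul_const _).congr (Eventually.of_forall fun u => by simp only; ring)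
    have hprod := hA.mul_prod hgi.norm
    refine Integrable.mono' hprod ?_ ?_
    · apply Measurable.aestronglyMeasurable
      have m1 : Measurable g := hg.measurable
      have m2 : Measurable (sl σ) := (continuous_sl σ).measurable
      have m3 : Measurable fun p : ℝ × ℝ => Complex.exp ((sl σ p.2 - 1) *
          (Real.log (p.1 * Y) : ℝ)) := by fun_prop
      have m4 : Measurable fun p : ℝ × ℝ => ((rexp (-π * n * p.1) : ℝ) : ℂ) := by fun_prop
      exact m4.mul ((m1.comp measurable_snd).mul m3)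
    · have hae : ∀ᵐ p : ℝ × ℝ ∂((volume.restrict (Ioi (0 : ℝ))).prod volume), p.1 ∈ Ioi (0 : ℝ) := by
        have := (ae_restrict_mem (μ := volume) (s := Ioi (0 : ℝ)) measurableSet_Ioi)
        exact (Measure.quasiMeasurePreserving_fst.ae this)
      filter_upwards [hae] with p hp
      have hp' : 0 < p.1 := hp
      simp only [Function.uncurry]
      rw [norm_mul, norm_mul, Complex.norm_real, Real.norm_eq_abs, abs_of_pos (Real.exp_pos _),
        Complex.norm_exp]
      have e1 : ((sl σ p.2 - 1) * (Real.log (p.1 * Y) : ℝ)).re = σ * Real.log (p.1 * Y) := by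
        unfold sl
        simp
      rw [e1]
      have e2 : rexp (σ * Real.log (p.1 * Y)) = p.1 ^ σ * (Y : ℝ) ^ σ := by
        rw [← Real.mul_rpow hp'.le hY0.le, Real.rpow_def_of_pos (mul_pos hp' hY0), mul_comm]
      rw [e2]
      apply le_of_eq
      ring_nf
  unfold bet
  have hmain : ((∫ u in Ioi (0 : ℝ), rexp (-π * n * u) * cfY Y h u : ℝ) : ℂ) =
      ∫ τ : ℝ, Kf Y σ g τ * (n : ℂ) ^ (-sl σ τ) := by
    rw [← integral_complex_ofReal]
    have e1 : (∫ u in Ioi (0 : ℝ), ((rexp (-π * n * u) * cfY Y h u : ℝ) : ℂ)) =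
        ∫ u in Ioi (0 : ℝ), ∫ τ : ℝ, ((rexp (-π * n * u) : ℝ) : ℂ) *
        (g τ * Complex.exp ((sl σ τ - 1) * (Real.log (u * Y) : ℝ))) :=
      setIntegral_congr_fun measurableSet_Ioi hpt
    refine e1.trans ?_
    rw [integral_integral_swap hint]
    refine integral_congr_ae (Eventually.of_forall fun τ => ?_)
    simp only
    have e2 : ∀ u : ℝ, ((rexp (-π * n * u) : ℝ) : ℂ) *
        (g τ * Complex.exp ((sl σ τ - 1) * (Real.log (u * Y) : ℝ))) =
        g τ * (((rexp (-π * n * u) : ℝ) : ℂ) *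
          Complex.exp ((sl σ τ - 1) * (Real.log (u * Y) : ℝ))) := fun u => by ring
    simp only [e2]
    rw [integral_const_mul, inner_integral hY h0 hn]
    unfold Kf
    ring
  rw [integral_const_mul, ← hmain]
  push_cast
  ring

end H128

end P004G
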